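import Vale.Agent.P112.H314.F.FC
import Vale.Agent.P112.H724.FD2
import Vale.Agent.P112.T.Cor

/-!
# P112 / (G) / [FF0] : the classes of the weighted count, with a gap (helper314)

`B = M.B u S ε` is nondecreasing in the scale. Class `k`: tops `(U, jU)` with `b ^ k ≤ B U jU < b ^ (k + 1)`, tree pairs `(z, j)` with
`b ^ k ≤ B z (j - l) < b ^ (k + 1)` and `B z j < b ^ (k + 2)`, `b = 6 / 5`. The pairs in no class are the jump pairs.
-/

open MeasureTheory Set Filter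
open scoped ENNReal

set_option linter.dupNamespace false
set_option linter.unusedSectionVars false

namespace Vale.Agent.P112.ClG

open T F30 FW

variable {κ : Type} [Fintype κ] {M : Tops κ} {u : ℝ × ℝ → ℝ} {S ε D : ℝ} {n l : ℕ}
  {P : ℕ → Set (ℝ × ℝ)}

/-! ### The systems -/

/-- The ambient system: all the scales of the points of `P`. -/
def amb (P : ℕ → Set (ℝ × ℝ)) (n j : ℕ) : Set (ℝ × ℝ) := {z | z ∈ Un P n ∧ j < n}

/-- The tops of the class `k`. -/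
def bas (M : Tops κ) (u : ℝ × ℝ → ℝ) (S ε : ℝ) (P : ℕ → Set (ℝ × ℝ)) (n : ℕ) (k : ℤ) (j : ℕ) :
    Set (ℝ × ℝ) :=
  {z | z ∈ amb P n j ∧ (6 / 5 : ℝ) ^ k ≤ M.B u S ε z j ∧ M.B u S ε z j < (6 / 5 : ℝ) ^ (k + 1)}

/-- The tree pairs of the class `k`. -/
def trk (M : Tops κ) (u : ℝ × ℝ → ℝ) (S ε : ℝ) (P : ℕ → Set (ℝ × ℝ)) (l : ℕ) (k : ℤ) (j : ℕ) :
    Set (ℝ × ℝ) :=
  {z | z ∈ P j ∧ l ≤ j ∧ (6 / 5 : ℝ) ^ k ≤ M.B u S ε z (j - l) ∧
    M.B u S ε z (j - l) < (6 / 5 : ℝ) ^ (k + 1) ∧ M.B u S ε z j < (6 / 5 : ℝ) ^ (k + 2)}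

/-- The jump pairs. -/
def jmp (M : Tops κ) (u : ℝ × ℝ → ℝ) (S ε : ℝ) (P : ℕ → Set (ℝ × ℝ)) (l : ℕ) (j : ℕ) :
    Set (ℝ × ℝ) :=
  {z | z ∈ P j ∧ l ≤ j ∧ ∀ k : ℤ, z ∉ trk M u S ε P l k j}

/-- The points with a large count. -/
def big (M : Tops κ) (ε : ℝ) (P : ℕ → Set (ℝ × ℝ)) (X : ℝ) (j : ℕ) : Set (ℝ × ℝ) :=
  {z | z ∈ P j ∧ X < M.Nw ε z}

/-- The points with a small count. -/
def sml (M : Tops κ) (ε : ℝ) (P : ℕ → Set (ℝ × ℝ)) (X : ℝ) (j : ℕ) : Set (ℝ × ℝ) :=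
  {z | z ∈ P j ∧ M.Nw ε z ≤ X}

theorem psys_sub {Q : ℕ → Set (ℝ × ℝ)} (hP : PSys n P) (hm : ∀ j, MeasurableSet (Q j))
    (hs : ∀ j, Q j ⊆ P j)
    (hc : ∀ z, ∀ i j k : ℕ, i ≤ j → j ≤ k → z ∈ Q i → z ∈ Q k → z ∈ Q j) : PSys n Q where
  meas := hm
  bdd := by
    obtain ⟨r, hr⟩ := hP.bdd
    exact ⟨r, fun j z hz => hr j z (hs j hz)⟩
  lt j hj := by
    have h1 := hs j
    rw [hP.lt j hj] at h1
    exact subset_empty_iff.1 h1
  conv := hc

theorem amb_psys (hP : PSys n P) : PSys n (amb P n) where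
  meas j := by
    by_cases h : j < n
    · have : amb P n j = Un P n := by
        ext z
        simp [amb, h]
      rw [this]
      exact measurableSet_Un hP.meas n
    · have : amb P n j = ∅ := by
        ext z
        simp [amb, h]
      rw [this]
      exact MeasurableSet.empty
  bdd := by
    obtain ⟨r, hr⟩ := hP.bdd
    refine ⟨r, fun j z hz => ?_⟩
    obtain ⟨⟨i, _, hi⟩, _⟩ := hz
    exact hr i z hi
  lt j hj := by
    ext z
    simp only [mem_empty_iff_false, iff_false]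
    intro hz
    exact absurd hz.2 (not_lt.2 hj)
  conv z i j k _ hjk hi hk := ⟨hi.1, hjk.trans_lt hk.2⟩

theorem sub_amb (hP : PSys n P) (j : ℕ) : P j ⊆ amb P n j := by
  intro z hz
  have hj : j < n := by
    by_contra h
    rw [hP.lt j (not_lt.1 h)] at hz
    exact hz
  exact ⟨⟨j, hj, hz⟩, hj⟩

theorem bas_psys (hu : Measurable u) (hS : 0 ≤ S) (hP : PSys n P) (k : ℤ) :
    PSys n (bas M u S ε P n k) := by
  have hA := amb_psys hP
  refine psys_sub hA (fun j => ?_) (fun j z hz => hz.1) ?_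
  · exact (hA.meas j).inter ((measurableSet_le measurable_const (B_meas hu j)).inter
      (measurableSet_lt (B_meas hu j) measurable_const))
  · intro z i j m hij hjm hi hm
    exact ⟨hA.conv z i j m hij hjm hi.1 hm.1, hi.2.1.trans (B_mono hS hij),
      (B_mono hS hjm).trans_lt hm.2.2⟩

theorem trk_meas (hu : Measurable u) (hP : PSys n P) (k : ℤ) (j : ℕ) :
    MeasurableSet (trk M u S ε P l k j) := by
  have : trk M u S ε P l k j = P j ∩ ({_z | l ≤ j} ∩ ({z | (6 / 5 : ℝ) ^ k ≤ M.B u S ε z (j - l)} ∩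
      ({z | M.B u S ε z (j - l) < (6 / 5 : ℝ) ^ (k + 1)} ∩
        {z | M.B u S ε z j < (6 / 5 : ℝ) ^ (k + 2)}))) := rfl
  rw [this]
  exact (hP.meas j).inter ((MeasurableSet.const _).inter
    ((measurableSet_le measurable_const (B_meas hu _)).inter
      ((measurableSet_lt (B_meas hu _) measurable_const).inter
        (measurableSet_lt (B_meas hu _) measurable_const))))

theorem trk_psys (hu : Measurable u) (hS : 0 ≤ S) (hP : PSys n P) (k : ℤ) :
    PSys n (trk M u S ε P l k) := by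
  refine psys_sub hP (trk_meas hu hP k) (fun j z hz => hz.1) ?_
  intro z i j m hij hjm hi hm
  exact ⟨hP.conv z i j m hij hjm hi.1 hm.1, hi.2.1.trans hij,
    hi.2.2.1.trans (B_mono hS (Nat.sub_le_sub_right hij l)),
    (B_mono hS (Nat.sub_le_sub_right hjm l)).trans_lt hm.2.2.2.1,
    (B_mono hS hjm).trans_lt hm.2.2.2.2⟩

theorem big_psys (hP : PSys n P) (X : ℝ) : PSys n (big M ε P X) :=
  psys_sub hP (fun j => (hP.meas j).inter (measurableSet_lt measurable_const (Nw_meas M ε)))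
    (fun _ _ hz => hz.1) fun z i j m hij hjm hi hm => ⟨hP.conv z i j m hij hjm hi.1 hm.1, hi.2⟩

theorem sml_psys (hP : PSys n P) (X : ℝ) : PSys n (sml M ε P X) :=
  psys_sub hP (fun j => (hP.meas j).inter (measurableSet_le (Nw_meas M ε) measurable_const))
    (fun _ _ hz => hz.1) fun z i j m hij hjm hi hm => ⟨hP.conv z i j m hij hjm hi.1 hm.1, hi.2⟩

/-- The first scale of a tree pair belongs to the tops. -/
theorem trk_bas (hP : PSys n P) {k : ℤ} {j : ℕ} {z : ℝ × ℝ} (hz : z ∈ trk M u S ε P l k j) :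
    z ∈ bas M u S ε P n k (j - l) := by
  have h1 := sub_amb hP j hz.1
  exact ⟨⟨h1.1, (Nat.sub_le j l).trans_lt h1.2⟩, hz.2.2.1, hz.2.2.2.1⟩

/-! ### Uniqueness and range of the class -/

theorem pow_unique {x : ℝ} {k k' : ℤ} (h1 : (6 / 5 : ℝ) ^ k ≤ x) (h2 : x < (6 / 5 : ℝ) ^ (k + 1))
    (h1' : (6 / 5 : ℝ) ^ k' ≤ x) (h2' : x < (6 / 5 : ℝ) ^ (k' + 1)) : k = k' := by
  have a1 := h1.trans_lt h2'
  have a2 := h1'.trans_lt h2
  rw [zpow_lt_zpow_iff_right₀ (by norm_num)] at a1 a2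
  omega

theorem trk_unique {k k' : ℤ} {j : ℕ} {z : ℝ × ℝ} (h : z ∈ trk M u S ε P l k j)
    (h' : z ∈ trk M u S ε P l k' j) : k = k' :=
  pow_unique h.2.2.1 h.2.2.2.1 h'.2.2.1 h'.2.2.2.1

/-- Range of `k` : below. -/
theorem trk_low {k : ℤ} {j : ℕ} {z : ℝ × ℝ} (hz : z ∈ trk M u S ε P l k j)
    (hB : 3 / 4 ≤ M.B u S ε z j) : -3 ≤ k := by
  by_contra h
  push Not at h
  have h1 : (6 / 5 : ℝ) ^ (k + 2) ≤ (6 / 5 : ℝ) ^ (-2 : ℤ) :=
    zpow_le_zpow_right₀ (by norm_num) (by omega)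
  have h2 := hz.2.2.2.2
  have h3 : (6 / 5 : ℝ) ^ (-2 : ℤ) = 25 / 36 := by
    rw [zpow_neg, show (2 : ℤ) = ((2 : ℕ) : ℤ) by norm_num, zpow_natCast]
    norm_num
  linarith

/-- Range of `k` : above. -/
theorem trk_high {k : ℤ} {j x : ℕ} {z : ℝ × ℝ} (hz : z ∈ trk M u S ε P l k j)
    (hX : M.Nw ε z ≤ 2 ^ x) : k ≤ 4 * x := by
  by_contra h
  push Not at h
  have h1 : (6 / 5 : ℝ) ^ ((4 * x : ℕ) : ℤ) < (6 / 5 : ℝ) ^ k := by
    rw [zpow_lt_zpow_iff_right₀ (by norm_num)]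
    push_cast
    exact h
  rw [zpow_natCast, pow_mul] at h1
  have h2 : (2 : ℝ) ^ x ≤ ((6 / 5 : ℝ) ^ 4) ^ x := pow_le_pow_left₀ (by norm_num) (by norm_num) x
  have h3 := hz.2.2.1
  have h4 : M.B u S ε z (j - l) ≤ M.Nw ε z := B_le_Nw z (j - l)
  linarith

theorem jmp_meas (hu : Measurable u) (hP : PSys n P) (j : ℕ) : MeasurableSet (jmp M u S ε P l j) := by
  have : jmp M u S ε P l j = P j ∩ ({_z | l ≤ j} ∩ (⋃ k : ℤ, trk M u S ε P l k j)ᶜ) := by
    ext z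
    simp only [jmp, mem_inter_iff, mem_compl_iff, mem_iUnion, not_exists, mem_ofPred_eq]
  rw [this]
  exact (hP.meas j).inter ((MeasurableSet.const _).inter
    (MeasurableSet.iUnion fun k => trk_meas hu hP k j).compl)

/-- At a jump pair the count grows by `6 / 5` in `l` steps. -/
theorem jmp_grow {j : ℕ} {z : ℝ × ℝ} (hz : z ∈ jmp M u S ε P l j) :
    6 / 5 * M.B u S ε z (j - l) ≤ M.B u S ε z j := by
  have h0 : 0 ≤ M.B u S ε z (j - l) := by
    classical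
    rw [B_eq]
    refine Finset.sum_nonneg fun m _ => ?_
    split_ifs
    · exact (tw_pos M ε m z).le
    · exact le_rfl
  have h0' : 0 ≤ M.B u S ε z j := by
    classical
    rw [B_eq]
    refine Finset.sum_nonneg fun m _ => ?_
    split_ifs
    · exact (tw_pos M ε m z).le
    · exact le_rfl
  rcases h0.eq_or_lt with h | h
  · rw [← h, mul_zero]
    exact h0'
  · obtain ⟨k, hk1, hk2⟩ := exists_mem_Ico_zpow h (show (1 : ℝ) < 6 / 5 by norm_num)
    have h1 := hz.2.2 k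
    have h2 : (6 / 5 : ℝ) ^ (k + 2) ≤ M.B u S ε z j := by
      by_contra hcon
      exact h1 ⟨hz.1, hz.2.1, hk1, hk2, not_le.1 hcon⟩
    have h3 : (6 / 5 : ℝ) ^ (k + 2) = 6 / 5 * (6 / 5 : ℝ) ^ (k + 1) := by
      rw [show k + 2 = (k + 1) + 1 by ring, zpow_add_one₀ (by norm_num), mul_comm]
    linarith

/-- **The partition.** -/
theorem ind_part (hlow : ∀ j, (P j).Nonempty → l ≤ j) (hB : ∀ j, ∀ z ∈ P j, 3 / 4 ≤ M.B u S ε z j)
    {x : ℕ} (hX : ∀ j, ∀ z ∈ P j, M.Nw ε z ≤ 2 ^ x) (j : ℕ) (g : ℝ × ℝ → ℝ) (z : ℝ × ℝ) :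
    (P j).indicator g z =
      ∑ i ∈ Finset.range (4 * x + 4), (trk M u S ε P l ((i : ℤ) - 3) j).indicator g z +
        (jmp M u S ε P l j).indicator g z := by
  by_cases hz : z ∈ P j
  · rw [indicator_of_mem hz]
    by_cases hk : ∃ k : ℤ, z ∈ trk M u S ε P l k j
    · obtain ⟨k, hk⟩ := hk
      have h1 := trk_low hk (hB j z hz)
      have h2 := trk_high hk (hX j z hz)
      obtain ⟨i, hi⟩ : ∃ i : ℕ, (i : ℤ) - 3 = k := ⟨(k + 3).toNat, by omega⟩
      rw [indicator_of_notMem (show z ∉ jmp M u S ε P l j from fun h => h.2.2 k hk), add_zero,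
        Finset.sum_eq_single i]
      · rw [indicator_of_mem]
        rw [hi]
        exact hk
      · intro i' _ hne
        refine indicator_of_notMem (fun h => hne ?_) _
        have := trk_unique h hk
        omega
      · intro h
        exfalso
        apply h
        rw [Finset.mem_range]
        omega
    · push Not at hk
      rw [indicator_of_mem (show z ∈ jmp M u S ε P l j from ⟨hz, hlow j ⟨z, hz⟩, hk⟩)]
      rw [Finset.sum_eq_zero fun i _ => indicator_of_notMem (hk _) _, zero_add]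
  · rw [indicator_of_notMem hz, indicator_of_notMem (fun h => hz h.1),
      Finset.sum_eq_zero fun i _ => indicator_of_notMem (fun h => hz h.1) _, zero_add]

theorem ind_big (X : ℝ) (j : ℕ) (g : ℝ × ℝ → ℝ) (z : ℝ × ℝ) :
    (P j).indicator g z = (sml M ε P X j).indicator g z + (big M ε P X j).indicator g z := by
  by_cases hz : z ∈ P j
  · by_cases h : M.Nw ε z ≤ X
    · rw [indicator_of_mem hz, indicator_of_mem (show z ∈ sml M ε P X j from ⟨hz, h⟩),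
        indicator_of_notMem (fun h' => absurd h'.2 (not_lt.2 h)), add_zero]
    · rw [indicator_of_mem hz, indicator_of_notMem (fun h' => h h'.2),
        indicator_of_mem (show z ∈ big M ε P X j from ⟨hz, not_le.1 h⟩), zero_add]
  · rw [indicator_of_notMem hz, indicator_of_notMem (fun h => hz h.1),
      indicator_of_notMem (fun h => hz h.1), zero_add]

/-- The mass of the points with a large count. -/
theorem vol_big (hε : 0 < ε) {X : ℝ} (hX : 0 < X) :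
    volume (Un (big M ε P X) n) ≤ ENNReal.ofReal (4 / ε ^ 2 * (∑ m, (1 / 2) ^ M.j m) / X) := by
  have h1 : Un (big M ε P X) n ⊆ {z | ENNReal.ofReal X ≤ ENNReal.ofReal (M.Nw ε z)} := by
    rintro z ⟨j, _, hz⟩
    exact ENNReal.ofReal_le_ofReal hz.2.le
  have h2 := mul_meas_ge_le_lintegral₀ (μ := volume)
    (f := fun z => ENNReal.ofReal (M.Nw ε z)) (Nw_meas M ε).ennreal_ofReal.aemeasurable
    (ENNReal.ofReal X)
  rw [lint_Nw hε M] at h2
  have h3 : ENNReal.ofReal X * volume (Un (big M ε P X) n) ≤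
      ENNReal.ofReal (4 / ε ^ 2 * ∑ m, (1 / 2) ^ M.j m) :=
    (mul_le_mul_right (measure_mono h1) _).trans h2
  rw [ENNReal.ofReal_div_of_pos hX, ENNReal.le_div_iff_mul_le
    (Or.inl (by rw [Ne, ENNReal.ofReal_eq_zero, not_le]; exact hX))
    (Or.inl ENNReal.ofReal_ne_top), mul_comm]
  exact h3

/-! ### Common tops -/

/-- **Common top**, class `k`. -/
theorem ctk (hS : 0 ≤ S) (hε : 0 ≤ ε) (hD : ε * (2 + D + 2 * S) ≤ 1 / 4) {k : ℤ} {z U U' : ℝ × ℝ}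
    {j a a' : ℕ} (hz : M.B u S ε z j < (6 / 5 : ℝ) ^ (k + 2)) (h1 : (6 / 5 : ℝ) ^ k ≤ M.B u S ε U a)
    (h2 : (6 / 5 : ℝ) ^ k ≤ M.B u S ε U' a') (hU : Abo u S D U a z j) (hU' : Abo u S D U' a' z j) :
    ∃ m, Act M u S U a m ∧ Act M u S U' a' m := by
  refine common hS hε hD hU hU' h1 h2 (hz.trans ?_)
  have hp : (0 : ℝ) < (6 / 5 : ℝ) ^ k := zpow_pos (by norm_num) _
  rw [show k + 2 = (k + 1) + 1 by ring, zpow_add_one₀ (by norm_num), zpow_add_one₀ (by norm_num)]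
  nlinarith

theorem ctk_slope (hS : 0 ≤ S) (hε : 0 ≤ ε) (hD : ε * (2 + D + 2 * S) ≤ 1 / 4) {k : ℤ}
    {z U U' : ℝ × ℝ} {j a a' : ℕ} (hz : M.B u S ε z j < (6 / 5 : ℝ) ^ (k + 2))
    (h1 : (6 / 5 : ℝ) ^ k ≤ M.B u S ε U a) (h2 : (6 / 5 : ℝ) ^ k ≤ M.B u S ε U' a')
    (hU : Abo u S D U a z j) (hU' : Abo u S D U' a' z j) :
    |u U - u U'| ≤ S * (2 ^ a + 2 ^ a') := by
  obtain ⟨m, hm, hm'⟩ := ctk hS hε hD hz h1 h2 hU hU'
  have h3 := hm.2
  have h4 := hm'.2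
  rw [abs_sub_comm] at h4
  have e : u U - u U' = (u U - M.s m) + (M.s m - u U') := by ring
  have h5 : |u U - u U'| ≤ |u U - M.s m| + |M.s m - u U'| := by rw [e]; exact abs_add_le _ _
  linarith

/-- The count of a pair above is almost dominated. -/
theorem B_le_of_abo (hS : 0 ≤ S) (hε : 0 ≤ ε) {ρ : ℝ} (hD : ε * (2 + D + 2 * S) ≤ ρ)
    {U z : ℝ × ℝ} {a j : ℕ} (h : Abo u S D U a z j) :
    (1 - ρ) * M.B u S ε U a ≤ M.B u S ε z j := by
  classical
  rcases le_or_gt 1 ρ with hρ | hρ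
  · have h0 : ∀ (w : ℝ × ℝ) (i : ℕ), 0 ≤ M.B u S ε w i := by
      intro w i
      rw [B_eq]
      refine Finset.sum_nonneg fun m _ => ?_
      split_ifs
      · exact (tw_pos M ε m w).le
      · exact le_rfl
    have h1 := h0 U a
    have h2 := h0 z j
    nlinarith
  · rw [B_eq, B_eq, Finset.mul_sum]
    refine Finset.sum_le_sum fun m _ => ?_
    by_cases hm : Act M u S U a m
    · rw [if_pos hm, if_pos (h.act hS hm)]
      have h1 := h.ex_le hS hm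
      have h2 : -(ε * tex M m U) + -ρ ≤ -(ε * tex M m z) := by
        have := mul_le_mul_of_nonneg_left h1 hε
        linarith
      rw [tw_eq, tw_eq]
      calc (1 - ρ) * Real.exp (-(ε * tex M m U)) ≤ Real.exp (-ρ) * Real.exp (-(ε * tex M m U)) := by
            refine mul_le_mul_of_nonneg_right ?_ (Real.exp_pos _).le
            have := Real.add_one_le_exp (-ρ)
            linarith
        _ = Real.exp (-(ε * tex M m U) + -ρ) := by rw [← Real.exp_add]; ring_nf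
        _ ≤ Real.exp (-(ε * tex M m z)) := Real.exp_le_exp.2 h2
    · rw [if_neg hm, mul_zero]
      split_ifs
      · exact (tw_pos M ε m z).le
      · exact le_rfl

/-- **Jump pairs**: a pair `(U, a)` above `(z, j - l)` with `B U a ≥ B z j / (21 / 20)` is far in slope. -/
theorem jump_far (hS : 0 ≤ S) (hε : 0 ≤ ε) (hD : ε * (2 + D + 2 * S) ≤ 1 / 10) {z U : ℝ × ℝ}
    {j a : ℕ} (hz : z ∈ jmp M u S ε P l j) (hpos : 0 < M.B u S ε z j)
    (hB : M.B u S ε z j ≤ 21 / 20 * M.B u S ε U a) (ha : a + 1 ≤ j - l)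
    (hx : |z.1 - U.1| ≤ 2 / 2 ^ a) (hy : |z.2 - ln u U z.1| ≤ D) :
    S / 2 * 2 ^ (j - l) < |u z - u U| := by
  by_contra hcon
  push Not at hcon
  have h1 := B_le_of_abo (M := M) hS hε hD (⟨ha, hcon, hx, hy⟩ : Abo u S D U a z (j - l))
  have h2 := jmp_grow hz
  have h3 : M.B u S ε z j ≤ 21 / 20 * M.B u S ε U a := hB
  have h4 : 0 < M.B u S ε U a := by nlinarith
  nlinarith

/-! ### The list of dense tops -/

theorem B_ge {z : ℝ × ℝ} {j : ℕ} {m : κ} (hm : Act M u S z j m)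
    (h3 : ε * (2 ^ M.j m * |z.1 - M.x m| + |z.2 - M.line m z.1|) ≤ 1 / 4) :
    3 / 4 ≤ M.B u S ε z j := by
  classical
  have hw : 3 / 4 ≤ M.w ε m z := by
    unfold Tops.w
    have h4 := Real.add_one_le_exp (-(ε * (2 ^ M.j m * |z.1 - M.x m| + |z.2 - M.line m z.1|)))
    linarith
  refine hw.trans ?_
  rw [B_eq]
  calc M.w ε m z = if Act M u S z j m then M.w ε m z else 0 := by rw [if_pos hm]
    _ ≤ ∑ m, if Act M u S z j m then M.w ε m z else 0 := by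
      refine Finset.single_le_sum (f := fun m => if Act M u S z j m then M.w ε m z else 0)
        (fun m _ => ?_) (Finset.mem_univ m)
      show 0 ≤ if Act M u S z j m then M.w ε m z else 0
      split_ifs
      · exact (tw_pos M ε m z).le
      · exact le_rfl

/-- The list of dense tops of the level `ν`. -/
theorem exists_list : ∃ C : ℝ, 1 ≤ C ∧ ∀ (u : ℝ × ℝ → ℝ), Field u →
    ∀ E : Set (ℝ × ℝ), MeasurableSet E → (∃ r : ℝ, ∀ z ∈ E, |z.1| ≤ r ∧ |z.2| ≤ r) →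
    ∀ (n ν : ℕ) (S ε : ℝ), C * 2 ^ ν ≤ S → 0 < ε → ε * (2 + 2 * S) ≤ 1 / 4 →
    ∃ (κ : Type) (_ : Fintype κ) (M : Tops κ),
      ENNReal.ofReal (∑ m, (1 / 2) ^ M.j m) ≤ ENNReal.ofReal (2 ^ (ν + 1)) * volume E ∧
      (∀ m, M.j m < n) ∧
      (∀ j, ∀ z ∈ Pd u E 4 n ν j, ∃ m, M.j m ≤ j ∧ q 0 (M.j m) z.1 = q 0 (M.j m) (M.x m) ∧
        |u z - M.s m| ≤ C * 2 ^ ν * 2 ^ j ∧ |z.2 - M.line m z.1| ≤ C * 2 ^ ν) ∧
      (∀ j, ∀ z ∈ Pd u E 4 n ν j, 3 / 4 ≤ M.B u S ε z j) := by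
  obtain ⟨C, hC, h⟩ := H724.stFD2 4
  refine ⟨4 * C, by linarith, ?_⟩
  intro u hu E hE hb n ν S ε hS hε hεS
  have hp1 : (1 : ℝ) ≤ 2 ^ ν := one_le_pow₀ (by norm_num)
  have hS0 : (1 : ℝ) ≤ 2 * 2 ^ ν := by linarith
  have h4 : (2 : ℝ) ^ (ν + 1) ≤ (2 * 2 ^ ν) ^ 4 := by
    rw [← pow_succ', ← pow_mul]
    exact pow_le_pow_right₀ (by norm_num) (by omega)
  obtain ⟨κ, hκ, M, hM1, -, -, hM2, hM3⟩ := h u hu E hE hb n ν (2 * 2 ^ ν) 1 le_rfl hS0 h4
  have key : ∀ j, ∀ z ∈ Pd u E 4 n ν j, ∃ m, M.j m ≤ j ∧ q 0 (M.j m) z.1 = q 0 (M.j m) (M.x m) ∧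
      |u z - M.s m| ≤ 4 * C * 2 ^ ν * 2 ^ j ∧ |z.2 - M.line m z.1| ≤ 4 * C * 2 ^ ν := by
    intro j z hz
    obtain ⟨m, a1, a2, a3, a4⟩ := hM3 j z hz
    refine ⟨m, a1, a2, a3.trans ?_, a4.trans ?_⟩
    · have : (0 : ℝ) < 2 ^ j := by positivity
      have h5 : C * (2 * 2 ^ ν) ≤ 4 * C * 2 ^ ν := by nlinarith
      exact mul_le_mul_of_nonneg_right h5 this.le
    · nlinarith
  refine ⟨κ, hκ, M, hM1, hM2, key, ?_⟩
  intro j z hz
  obtain ⟨m, a1, a2, a3, a4⟩ := key j z hz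
  refine B_ge (m := m) ⟨a1, a3.trans ?_⟩ ?_
  · exact mul_le_mul_of_nonneg_right hS (by positivity)
  · have h5 : |z.1 - M.x m| ≤ 1 / 2 ^ M.j m := H724.q_dist a2
    have h6 : 2 ^ M.j m * |z.1 - M.x m| ≤ 1 := by
      rw [le_div_iff₀ (by positivity)] at h5
      linarith
    calc ε * (2 ^ M.j m * |z.1 - M.x m| + |z.2 - M.line m z.1|) ≤ ε * (2 + 2 * S) := by
          refine mul_le_mul_of_nonneg_left ?_ hε.le
          nlinarith
      _ ≤ 1 / 4 := hεS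

end Vale.Agent.P112.ClG
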