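import Vale.Agent.P112.G.R2
import Vale.Agent.P112.H818.DDefs
import Vale.Agent.P112.H540.StSplit

/-!
# [DEPTH-PACK], part 1: the fat tiles of a family of trees satisfy the hypotheses of `StDepthAbs`

helper314, following helper818's recipe (note of 20:36). A tile is `(i, j, k, o)`: tree, level,
cell of the dyadic grid, offset cell of height `qn = ⌊Q⌋`.
-/

open MeasureTheory Set
open scoped ENNReal

set_option linter.dupNamespace false

namespace Vale.Agent.P112.DPk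

open T F30

/-- What is used about the family `B` (the high part of the bad part). -/
structure Hb (B : R2.Tr) (u : ℝ × ℝ → ℝ) (A H δ : ℝ) (W n : ℕ) : Prop where
  meas : ∀ i j, MeasurableSet (B.E i j)
  slope : ∀ i j, ∀ z ∈ B.E i j, |u z - B.s i| ≤ A * 2 ^ j
  line : ∀ i j, ∀ z ∈ B.E i j, |B.off i z| ≤ H / 2
  uniq : ∀ i i' j j' z, z ∈ B.E i j → z ∈ B.E i' j' → i = i'
  win : ∀ i j j' z z', z ∈ B.E i j → z' ∈ B.E i j' → j' ≤ j → |z.1 - z'.1| ≤ 8 / 2 ^ j' →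
    j ≤ j' + W
  far : ∀ i i' j j' z z', i ≠ i' → z ∈ B.E i j → z' ∈ B.E i' j' → j' ≤ j →
    |z.1 - z'.1| ≤ 8 / 2 ^ j' → |B.off i' z| ≤ 32 * H → 60 * A * 2 ^ j ≤ |u z - B.s i'|
  own : ∀ i j, ∀ z ∈ B.E i j, ENNReal.ofReal (δ / 2 ^ j) ≤ volume (B.E i j ∩ B.tile i j z)
  bdd : ∃ r : ℝ, ∀ i j, ∀ z ∈ B.E i j, j < n ∧ |z.1| ≤ r

/-- The fat offset cell of a point. -/
noncomputable def oc (B : R2.Tr) (qn : ℕ) (i : B.ι) (z : ℝ × ℝ) : ℤ := ⌊B.off i z⌋ / (qn : ℤ)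

/-- The sources in the tile `t = (i, j, k, o)`. -/
def Et (B : R2.Tr) (qn : ℕ) (t : B.ι × ℕ × ℤ × ℤ) : Set (ℝ × ℝ) :=
  {z | z ∈ B.E t.1 t.2.1 ∧ q 0 t.2.1 z.1 = t.2.2.1 ∧ oc B qn t.1 z = t.2.2.2}

/-- The nonempty tiles. -/
abbrev Pt (B : R2.Tr) (qn : ℕ) : Type := {t : B.ι × ℕ × ℤ × ℤ // (Et B qn t).Nonempty}

/-- The family of tiles. -/
noncomputable def td (B : R2.Tr) (qn : ℕ) : H818.TD (Pt B qn) B.ι where
  tr p := p.1.1
  s := B.s
  c p := B.c p.1.1 + (p.1.2.2.2 + 1 / 2) * qn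
  lv p := p.1.2.1
  cl p := p.1.2.2.1
  E p := Et B qn p.1

variable {B : R2.Tr} {u : ℝ × ℝ → ℝ} {A H δ Q : ℝ} {W n qn : ℕ}

theorem q_L {τ : ℝ} {j : ℕ} {x : ℝ} {k : ℤ} (h : q τ j x = k) :
    |x - (τ + k / 2 ^ j)| ≤ 1 / 2 ^ j := by
  have hp : (0 : ℝ) < 2 ^ j := by positivity
  unfold q at h
  rw [Int.floor_eq_iff] at h
  obtain ⟨h1, h2⟩ := h
  have e : x - (τ + k / 2 ^ j) = (2 ^ j * (x - τ) - k) / 2 ^ j := by field_simp; ring
  rw [e, abs_div, abs_of_pos hp, div_le_div_iff_of_pos_right hp, abs_le]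
  constructor <;> linarith

theorem oc_off (hq : 0 < qn) {i : B.ι} {z : ℝ × ℝ} {o : ℤ} (h : oc B qn i z = o) :
    |B.off i z - (o + 1 / 2) * qn| ≤ qn / 2 := by
  unfold oc at h
  have hq' : (0 : ℤ) < (qn : ℤ) := by exact_mod_cast hq
  have h1 : o * (qn : ℤ) ≤ ⌊B.off i z⌋ := by
    rw [← h]
    exact Int.ediv_mul_le _ hq'.ne'
  have h2 : ⌊B.off i z⌋ < (o + 1) * (qn : ℤ) := by
    rw [← h]
    exact Int.lt_ediv_add_one_mul_self _ hq'
  have h3 : (o : ℝ) * qn ≤ B.off i z := by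
    have : ((o * (qn : ℤ) : ℤ) : ℝ) ≤ B.off i z := Int.le_floor.1 h1
    push_cast at this
    exact this
  have h4 : B.off i z < (o + 1) * (qn : ℝ) := by
    have : B.off i z < (((o + 1) * (qn : ℤ) : ℤ) : ℝ) := Int.floor_lt.1 h2
    push_cast at this
    exact this
  rw [abs_le]
  constructor <;> nlinarith

theorem td_off (p : Pt B qn) (z : ℝ × ℝ) :
    z.2 - (td B qn).ln p z.1 = B.off p.1.1 z - (p.1.2.2.2 + 1 / 2) * qn := by
  unfold H818.TD.ln H818.TD.sl R2.Tr.off td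
  ring

theorem Et_line (hq : 0 < qn) (p : Pt B qn) {z : ℝ × ℝ} (hz : z ∈ Et B qn p.1) :
    |z.2 - (td B qn).ln p z.1| ≤ qn / 2 := by
  rw [td_off]
  exact oc_off hq hz.2.2

theorem meas_off (i : B.ι) : Measurable fun z : ℝ × ℝ => B.off i z := by
  unfold R2.Tr.off
  fun_prop

theorem Et_meas (hB : ∀ i j, MeasurableSet (B.E i j)) (t : B.ι × ℕ × ℤ × ℤ) :
    MeasurableSet (Et B qn t) := by
  have h1 : Measurable fun z : ℝ × ℝ => q 0 t.2.1 z.1 := by
    unfold q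
    exact Int.measurable_floor.comp (by fun_prop)
  have h2 : Measurable fun z : ℝ × ℝ => oc B qn t.1 z := by
    unfold oc
    exact (measurable_of_countable fun a : ℤ => a / (qn : ℤ)).comp
      (Int.measurable_floor.comp (meas_off t.1))
  have e : Et B qn t = B.E t.1 t.2.1 ∩ ((fun z : ℝ × ℝ => q 0 t.2.1 z.1) ⁻¹' {t.2.2.1} ∩
      (fun z : ℝ × ℝ => oc B qn t.1 z) ⁻¹' {t.2.2.2}) := by
    ext z
    rfl
  rw [e]
  exact (hB _ _).inter ((h1 (MeasurableSet.of_discrete)).inter (h2 (MeasurableSet.of_discrete)))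

theorem finite_Pt (h : Hb B u A H δ W n) (hq0 : 0 < qn) : Finite (Pt B qn) := by
  obtain ⟨r, hr⟩ := h.bdd
  have h1 : {t : B.ι × ℕ × ℤ × ℤ | (Et B qn t).Nonempty} ⊆
      univ ×ˢ (Iio n ×ˢ (Icc ⌊-(2 ^ n * r)⌋ ⌊2 ^ n * r⌋ ×ˢ
        Icc (⌊-(H / 2)⌋ / (qn : ℤ)) (⌊H / 2⌋ / (qn : ℤ)))) := by
    rintro ⟨i, j, k, o⟩ ⟨z, hz, hk, ho⟩
    simp only at hz hk ho
    obtain ⟨hj, hx⟩ := hr i j z hz
    have hx' := abs_le.1 hx
    have hl := abs_le.1 (h.line i j z hz)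
    have hr0 : 0 ≤ r := (abs_nonneg _).trans hx
    have hp : (0 : ℝ) < 2 ^ j := by positivity
    have hjn : (2 : ℝ) ^ j ≤ 2 ^ n := pow_le_pow_right₀ (by norm_num) hj.le
    have e1 : 2 ^ j * (z.1 - 0) ≤ 2 ^ n * r := by
      rw [sub_zero]
      calc (2 : ℝ) ^ j * z.1 ≤ 2 ^ j * r := mul_le_mul_of_nonneg_left hx'.2 hp.le
        _ ≤ 2 ^ n * r := mul_le_mul_of_nonneg_right hjn hr0
    have e2 : -(2 ^ n * r) ≤ 2 ^ j * (z.1 - 0) := by
      rw [sub_zero]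
      have a1 : 2 ^ j * (-r) ≤ 2 ^ j * z.1 := mul_le_mul_of_nonneg_left hx'.1 hp.le
      have a2 : (2 : ℝ) ^ j * r ≤ 2 ^ n * r := mul_le_mul_of_nonneg_right hjn hr0
      linarith
    have hq' : (0 : ℤ) < (qn : ℤ) := by exact_mod_cast hq0
    refine ⟨mem_univ _, hj, ⟨?_, ?_⟩, ?_, ?_⟩
    · show ⌊-(2 ^ n * r)⌋ ≤ k
      rw [← hk]; exact Int.floor_le_floor e2
    · show k ≤ ⌊2 ^ n * r⌋
      rw [← hk]; exact Int.floor_le_floor e1
    · show ⌊-(H / 2)⌋ / (qn : ℤ) ≤ o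
      rw [← ho]
      unfold oc
      exact Int.ediv_le_ediv hq' (Int.floor_le_floor hl.1)
    · show o ≤ ⌊H / 2⌋ / (qn : ℤ)
      rw [← ho]
      unfold oc
      exact Int.ediv_le_ediv hq' (Int.floor_le_floor hl.2)
  have h2 : ({t : B.ι × ℕ × ℤ × ℤ | (Et B qn t).Nonempty}).Finite :=
    Set.Finite.subset ((Set.toFinite univ).prod ((Set.finite_Iio n).prod
      ((Set.finite_Icc _ _).prod (Set.finite_Icc _ _)))) h1
  exact h2.to_subtype

/-- lines of two tiles over a point -/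
theorem ln_sub (p p' : Pt B qn) (x y : ℝ) :
    (td B qn).ln p x - (td B qn).ln p' x = ((td B qn).ln p y - (td B qn).ln p' y) +
      ((td B qn).sl p - (td B qn).sl p') * (x - y) := by
  unfold H818.TD.ln
  ring

theorem sep (h : Hb B u A H δ W n) (hA : 1 ≤ A) (hAQ : A ≤ Q) (hQH : Q ≤ H) (hq : 0 < qn)
    (hqQ : (qn : ℝ) ≤ Q) (p p' : Pt B qn) (hne : (td B qn).tr p ≠ (td B qn).tr p')
    (hl : (td B qn).lv p' ≤ (td B qn).lv p) (hm : (td B qn).Meet 0 H p p') :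
    4 * (A + 1) * 2 ^ (td B qn).lv p ≤ |(td B qn).sl p - (td B qn).sl p'| := by
  obtain ⟨x, h1, h2, h3⟩ := hm
  obtain ⟨z, hz⟩ := p.2
  obtain ⟨z', hz'⟩ := p'.2
  have hL := q_L h1
  have hLz := q_L (show q 0 ((td B qn).lv p) z.1 = (td B qn).cl p from hz.2.1)
  have hLz' := q_L (show q 0 ((td B qn).lv p') z'.1 = (td B qn).cl p' from hz'.2.1)
  set j := (td B qn).lv p with hj
  set j' := (td B qn).lv p' with hj'
  have hpj : (0 : ℝ) < 2 ^ j := by positivity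
  have hpj' : (0 : ℝ) < 2 ^ j' := by positivity
  have hle : (1 : ℝ) / 2 ^ j ≤ 1 / 2 ^ j' :=
    one_div_le_one_div_of_le hpj' (pow_le_pow_right₀ (by norm_num) hl)
  -- `z` and `x` are in the same cell
  have hzx : |z.1 - x| ≤ 1 / 2 ^ j := by
    have h1' := h1
    have h2' : q 0 j z.1 = (td B qn).cl p := hz.2.1
    unfold q at h1' h2'
    rw [Int.floor_eq_iff] at h1' h2'
    have e : z.1 - x = (2 ^ j * (z.1 - 0) - 2 ^ j * (x - 0)) / 2 ^ j := by field_simp; ring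
    rw [e, abs_div, abs_of_pos hpj, div_le_div_iff_of_pos_right hpj, abs_le]
    constructor <;> linarith [h1'.1, h1'.2, h2'.1, h2'.2]
  have hzz' : |z.1 - z'.1| ≤ 8 / 2 ^ j' := by
    have e : z.1 - z'.1 = (z.1 - x) + (x - (td B qn).L 0 p') - (z'.1 - (td B qn).L 0 p') := by ring
    have hLz'' : |z'.1 - (td B qn).L 0 p'| ≤ 1 / 2 ^ j' := hLz'
    have t1 := abs_sub ((z.1 - x) + (x - (td B qn).L 0 p')) (z'.1 - (td B qn).L 0 p')
    have t2 := abs_add_le (z.1 - x) (x - (td B qn).L 0 p')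
    have e2 : (8 : ℝ) / 2 ^ j' = 1 / 2 ^ j' + 5 / 2 ^ j' + 1 / 2 ^ j' + 1 / 2 ^ j' := by ring
    have e3 : (0 : ℝ) < 1 / 2 ^ j' := by positivity
    rw [e, e2]
    linarith
  by_contra hlt
  rw [not_le] at hlt
  -- offset of `z` relative to the line of the tree of `p'`
  have ho : |B.off p'.1.1 z| ≤ 32 * H := by
    have a1 : |z.2 - (td B qn).ln p z.1| ≤ qn / 2 := Et_line hq p hz
    have a2 : |(td B qn).ln p z.1 - (td B qn).ln p' z.1| ≤ H + 8 * A := by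
      rw [ln_sub p p' z.1 x]
      have b1 := abs_add_le ((td B qn).ln p x - (td B qn).ln p' x)
        (((td B qn).sl p - (td B qn).sl p') * (z.1 - x))
      have b2 : |((td B qn).sl p - (td B qn).sl p') * (z.1 - x)| ≤ 8 * A := by
        rw [abs_mul]
        calc |(td B qn).sl p - (td B qn).sl p'| * |z.1 - x| ≤
              (4 * (A + 1) * 2 ^ j) * (1 / 2 ^ j) :=
              mul_le_mul hlt.le hzx (abs_nonneg _) (by positivity)
          _ = 4 * (A + 1) := by field_simp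
          _ ≤ 8 * A := by linarith
      linarith
    have a3 : |B.off p'.1.1 z - (p'.1.2.2.2 + 1 / 2) * qn| ≤ qn / 2 + (H + 8 * A) := by
      rw [← td_off p' z]
      have e : z.2 - (td B qn).ln p' z.1 = (z.2 - (td B qn).ln p z.1) +
          ((td B qn).ln p z.1 - (td B qn).ln p' z.1) := by ring
      rw [e]
      exact (abs_add_le _ _).trans (by linarith)
    have a4 : |B.off p'.1.1 z' - (p'.1.2.2.2 + 1 / 2) * qn| ≤ qn / 2 := oc_off hq hz'.2.2
    have a5 : |B.off p'.1.1 z'| ≤ H / 2 := h.line _ _ z' hz'.1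
    have e : B.off p'.1.1 z = (B.off p'.1.1 z - (p'.1.2.2.2 + 1 / 2) * qn) -
        (B.off p'.1.1 z' - (p'.1.2.2.2 + 1 / 2) * qn) + B.off p'.1.1 z' := by ring
    rw [e]
    have t1 := abs_add_le ((B.off p'.1.1 z - (p'.1.2.2.2 + 1 / 2) * qn) -
        (B.off p'.1.1 z' - (p'.1.2.2.2 + 1 / 2) * qn)) (B.off p'.1.1 z')
    have t2 := abs_sub (B.off p'.1.1 z - (p'.1.2.2.2 + 1 / 2) * qn)
        (B.off p'.1.1 z' - (p'.1.2.2.2 + 1 / 2) * qn)
    linarith
  have hfar := h.far p.1.1 p'.1.1 j j' z z' hne hz.1 hz'.1 hl hzz' ho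
  have hsl : |u z - B.s p.1.1| ≤ A * 2 ^ j := h.slope _ _ z hz.1
  have e : u z - B.s p'.1.1 = (u z - B.s p.1.1) + (B.s p.1.1 - B.s p'.1.1) := by ring
  rw [e] at hfar
  have t := abs_add_le (u z - B.s p.1.1) (B.s p.1.1 - B.s p'.1.1)
  have hlt' : |B.s p.1.1 - B.s p'.1.1| < 4 * (A + 1) * 2 ^ j := hlt
  nlinarith

theorem ovl (h : Hb B u A H δ W n) (z : ℝ × ℝ) (S : Finset (Pt B qn))
    (hS : ∀ p ∈ S, z ∈ (td B qn).E p) : S.card ≤ W + 1 := by
  classical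
  rcases S.eq_empty_or_nonempty with rfl | hne
  · simp
  obtain ⟨p0, hp0, hmin⟩ := S.exists_min_image (fun p => (td B qn).lv p) hne
  have htr : ∀ p ∈ S, p.1.1 = p0.1.1 := fun p hp =>
    h.uniq _ _ _ _ z (hS p hp).1 (hS p0 hp0).1
  have h1 : S.card ≤ (Finset.Icc ((td B qn).lv p0) ((td B qn).lv p0 + W)).card := by
    refine Finset.card_le_card_of_injOn (fun p => (td B qn).lv p) ?_ ?_
    · intro p hp
      have hp' : p ∈ S := hp
      have h2 := hmin p hp'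
      have h3 : (td B qn).lv p ≤ (td B qn).lv p0 + W := by
        have hz : z ∈ B.E p0.1.1 ((td B qn).lv p) := by
          have := (hS p hp').1
          rw [htr p hp'] at this
          exact this
        exact h.win p0.1.1 _ _ z z hz (hS p0 hp0).1 h2 (by rw [sub_self, abs_zero]; positivity)
      exact Finset.mem_coe.2 (Finset.mem_Icc.2 ⟨h2, h3⟩)
    · intro p hp p' hp' he
      have hp1 : p ∈ S := hp
      have hp2 : p' ∈ S := hp'
      have he' : p.1.2.1 = p'.1.2.1 := he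
      have e1 : p.1.1 = p'.1.1 := (htr p hp1).trans (htr p' hp2).symm
      obtain ⟨⟨i, j, k, o⟩, hpp⟩ := p
      obtain ⟨⟨i', j', k', o'⟩, hpp'⟩ := p'
      simp only at he' e1
      subst he' e1
      have a1 := hS _ hp1
      have a2 := hS _ hp2
      have b1 : k = k' := a1.2.1.symm.trans a2.2.1
      have b2 : o = o' := a1.2.2.symm.trans a2.2.2
      subst b1 b2
      rfl
  rw [Nat.card_Icc] at h1
  omega

theorem dens (h : Hb B u A H δ W n) (p : Pt B qn) : ∃ b B' : ℝ, 1 / 2 ≤ B' ∧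
    ENNReal.ofReal (2 * B' * (δ / 2 ^ (td B qn).lv p)) ≤
      volume ((td B qn).E p ∩ {z : ℝ × ℝ | |z.2 - b - (td B qn).sl p * z.1| ≤ B'}) := by
  obtain ⟨z, hz⟩ := p.2
  refine ⟨B.c p.1.1 + ⌊B.off p.1.1 z⌋ + 1 / 2, 1 / 2, le_rfl, ?_⟩
  have h1 := h.own _ _ z hz.1
  rw [show (2 : ℝ) * (1 / 2) * (δ / 2 ^ (td B qn).lv p) = δ / 2 ^ (td B qn).lv p by ring]
  refine h1.trans (measure_mono ?_)
  rintro y ⟨hy1, hy2, hy3⟩
  refine ⟨⟨hy1, hy2.trans hz.2.1, ?_⟩, ?_⟩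
  · show ⌊B.off p.1.1 y⌋ / (qn : ℤ) = p.1.2.2.2
    rw [hy3]
    exact hz.2.2
  · show |y.2 - (B.c p.1.1 + ⌊B.off p.1.1 z⌋ + 1 / 2) - B.s p.1.1 * y.1| ≤ 1 / 2
    rw [← hy3]
    have h2 := Int.floor_le (B.off p.1.1 y)
    have h3 := Int.lt_floor_add_one (B.off p.1.1 y)
    have e : y.2 - (B.c p.1.1 + ⌊B.off p.1.1 y⌋ + 1 / 2) - B.s p.1.1 * y.1 =
        B.off p.1.1 y - ⌊B.off p.1.1 y⌋ - 1 / 2 := by
      unfold R2.Tr.off
      ring
    rw [e, abs_le]
    constructor <;> linarith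

/-- cells whose left ends are near a point -/
theorem cell_near {j : ℕ} {x : ℝ} {k : ℤ} (h : |x - (0 + k / 2 ^ j)| ≤ 7 / 2 ^ j) :
    k - q 0 j x ∈ Finset.Icc (-8 : ℤ) 8 := by
  have hp : (0 : ℝ) < 2 ^ j := by positivity
  have e : x - (0 + k / 2 ^ j) = (2 ^ j * (x - 0) - k) / 2 ^ j := by field_simp; ring
  rw [e, abs_div, abs_of_pos hp, div_le_div_iff_of_pos_right hp, abs_le] at h
  unfold q
  have h1 := Int.floor_le (2 ^ j * (x - 0))
  have h2 := Int.lt_floor_add_one (2 ^ j * (x - 0))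
  rw [Finset.mem_Icc]
  constructor
  · have : ((-8 : ℤ) : ℝ) ≤ ((k - ⌊2 ^ j * (x - 0)⌋ : ℤ) : ℝ) := by push_cast; linarith
    exact_mod_cast this
  · have : ((k - ⌊2 ^ j * (x - 0)⌋ : ℤ) : ℝ) ≤ ((8 : ℤ) : ℝ) := by push_cast; linarith
    exact_mod_cast this

theorem same (h : Hb B u A H δ W n) (hq : 0 < qn) (hqQ : Q ≤ 2 * qn) (p : Pt B qn)
    (S : Finset (Pt B qn)) (hS : ∀ p' ∈ S, p' ≠ p ∧ (td B qn).tr p' = (td B qn).tr p ∧
      (td B qn).lv p' ≤ (td B qn).lv p ∧ ((td B qn).Meet 0 (3 * Q) p p' ∨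
        ((td B qn).lv p' = (td B qn).lv p ∧ (td B qn).Meet 0 (3 * Q) p' p))) :
    S.card ≤ 221 * (W + 1) := by
  classical
  obtain ⟨z, hz⟩ := p.2
  set j := (td B qn).lv p with hj
  have hqr : (0 : ℝ) < qn := by exact_mod_cast hq
  have hLz : |z.1 - (td B qn).L 0 p| ≤ 1 / 2 ^ j :=
    q_L (show q 0 j z.1 = (td B qn).cl p from hz.2.1)
  -- main facts
  have key : ∀ p' ∈ S, j ≤ (td B qn).lv p' + W ∧
      |z.1 - (td B qn).L 0 p'| ≤ 7 / 2 ^ (td B qn).lv p' ∧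
      |(td B qn).c p - (td B qn).c p'| ≤ 3 * Q := by
    intro p' hp'
    obtain ⟨-, htr, hl, hm⟩ := hS p' hp'
    obtain ⟨z', hz'⟩ := p'.2
    set j' := (td B qn).lv p' with hj'
    have hLz' : |z'.1 - (td B qn).L 0 p'| ≤ 1 / 2 ^ j' :=
      q_L (show q 0 j' z'.1 = (td B qn).cl p' from hz'.2.1)
    have hle : (1 : ℝ) / 2 ^ j ≤ 1 / 2 ^ j' :=
      one_div_le_one_div_of_le (by positivity) (pow_le_pow_right₀ (by norm_num) hl)
    have hsl : (td B qn).sl p' = (td B qn).sl p := by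
      show B.s ((td B qn).tr p') = B.s ((td B qn).tr p)
      rw [htr]
    have e0 : (0 : ℝ) < 1 / 2 ^ j' := by positivity
    have e5 : (5 : ℝ) / 2 ^ j' = 5 * (1 / 2 ^ j') := by ring
    have e7 : (7 : ℝ) / 2 ^ j' = 7 * (1 / 2 ^ j') := by ring
    have e8 : (8 : ℝ) / 2 ^ j' = 8 * (1 / 2 ^ j') := by ring
    have hcc : ∀ x, (td B qn).ln p x - (td B qn).ln p' x = (td B qn).c p - (td B qn).c p' := by
      intro x
      unfold H818.TD.ln
      rw [hsl]
      ring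
    have hmain : |z.1 - (td B qn).L 0 p'| ≤ 7 / 2 ^ j' ∧
        |(td B qn).c p - (td B qn).c p'| ≤ 3 * Q := by
      rcases hm with ⟨x, h1, h2, h3⟩ | ⟨hjj, x, h1, h2, h3⟩
      · have hx : |x - (td B qn).L 0 p| ≤ 1 / 2 ^ j := q_L h1
        constructor
        · have e : z.1 - (td B qn).L 0 p' = (z.1 - (td B qn).L 0 p) - (x - (td B qn).L 0 p) +
            (x - (td B qn).L 0 p') := by ring
          have t1 := abs_add_le ((z.1 - (td B qn).L 0 p) - (x - (td B qn).L 0 p))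
            (x - (td B qn).L 0 p')
          have t2 := abs_sub (z.1 - (td B qn).L 0 p) (x - (td B qn).L 0 p)
          rw [e, e7]
          rw [e5] at h2
          linarith
        · rw [← hcc x]
          exact h3
      · have hx : |x - (td B qn).L 0 p'| ≤ 1 / 2 ^ j' := q_L h1
        rw [← hj, ← hjj, e5] at h2
        constructor
        · have e : z.1 - (td B qn).L 0 p' = (z.1 - (td B qn).L 0 p) - (x - (td B qn).L 0 p) +
            (x - (td B qn).L 0 p') := by ring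
          have t1 := abs_add_le ((z.1 - (td B qn).L 0 p) - (x - (td B qn).L 0 p))
            (x - (td B qn).L 0 p')
          have t2 := abs_sub (z.1 - (td B qn).L 0 p) (x - (td B qn).L 0 p)
          rw [e, e7]
          linarith
        · rw [← hcc x, abs_sub_comm]
          exact h3
    refine ⟨?_, hmain⟩
    have hzz' : |z.1 - z'.1| ≤ 8 / 2 ^ j' := by
      have e : z.1 - z'.1 = (z.1 - (td B qn).L 0 p') - (z'.1 - (td B qn).L 0 p') := by ring
      have t2 := abs_sub (z.1 - (td B qn).L 0 p') (z'.1 - (td B qn).L 0 p')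
      have h7 := hmain.1
      rw [e, e8]
      rw [e7] at h7
      linarith
    have hz'' : z' ∈ B.E p.1.1 j' := by
      have h9 : p'.1.1 = p.1.1 := htr
      rw [← h9]
      exact hz'.1
    exact h.win p.1.1 j j' z z' hz.1 hz'' hl hzz'
  have h1 : S.card ≤ ((Finset.range (W + 1)) ×ˢ ((Finset.Icc (-8 : ℤ) 8) ×ˢ
      (Finset.Icc (-6 : ℤ) 6))).card := by
    refine Finset.card_le_card_of_injOn (fun p' => (j - (td B qn).lv p',
      (td B qn).cl p' - q 0 ((td B qn).lv p') z.1, p'.1.2.2.2 - p.1.2.2.2)) ?_ ?_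
    · intro p' hp'
      have hp1 : p' ∈ S := hp'
      obtain ⟨k1, k2, k3⟩ := key p' hp1
      refine Finset.mem_coe.2 (Finset.mem_product.2 ⟨Finset.mem_range.2 ?_,
        Finset.mem_product.2 ⟨cell_near k2, ?_⟩⟩)
      · show j - (td B qn).lv p' < W + 1
        omega
      · have htr : p'.1.1 = p.1.1 := (hS p' hp1).2.1
        have e : (td B qn).c p - (td B qn).c p' = (p.1.2.2.2 - p'.1.2.2.2 : ℝ) * qn := by
          show B.c p.1.1 + (p.1.2.2.2 + 1 / 2) * qn - (B.c p'.1.1 + (p'.1.2.2.2 + 1 / 2) * qn) = _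
          rw [htr]
          ring
        rw [e, abs_mul, abs_of_pos hqr] at k3
        have k4 : |(p.1.2.2.2 - p'.1.2.2.2 : ℝ)| ≤ 6 := by
          have : |(p.1.2.2.2 - p'.1.2.2.2 : ℝ)| * qn ≤ 6 * qn := by linarith
          exact le_of_mul_le_mul_right this hqr
        rw [abs_le] at k4
        rw [Finset.mem_Icc]
        constructor
        · have : ((-6 : ℤ) : ℝ) ≤ ((p'.1.2.2.2 - p.1.2.2.2 : ℤ) : ℝ) := by push_cast; linarith
          exact_mod_cast this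
        · have : ((p'.1.2.2.2 - p.1.2.2.2 : ℤ) : ℝ) ≤ ((6 : ℤ) : ℝ) := by push_cast; linarith
          exact_mod_cast this
    · intro p1 hp1 p2 hp2 he
      have g1 : p1 ∈ S := hp1
      have g2 : p2 ∈ S := hp2
      simp only [Prod.mk.injEq] at he
      obtain ⟨e1, e2, e3⟩ := he
      have l1 := (hS p1 g1).2.2.1
      have l2 := (hS p2 g2).2.2.1
      have e4 : (td B qn).lv p1 = (td B qn).lv p2 := by omega
      rw [e4] at e2
      have e5 : p1.1.2.2.1 = p2.1.2.2.1 := by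
        have : (td B qn).cl p1 = (td B qn).cl p2 := by omega
        exact this
      have e6 : p1.1.2.2.2 = p2.1.2.2.2 := by omega
      have e7 : p1.1.1 = p2.1.1 := (hS p1 g1).2.1.trans (hS p2 g2).2.1.symm
      have e8 : p1.1.2.1 = p2.1.2.1 := e4
      exact Subtype.ext (Prod.ext e7 (Prod.ext e8 (Prod.ext e5 e6)))
  refine h1.trans (le_of_eq ?_)
  rw [Finset.card_product, Finset.card_product, Finset.card_range, Int.card_Icc, Int.card_Icc,
    show (8 + 1 - -8 : ℤ).toNat = 17 from rfl, show (6 + 1 - -6 : ℤ).toNat = 13 from rfl]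
  ring

theorem thick (hq : 0 < qn) (hQ0 : 0 ≤ Q) (hqQ : Q ≤ 2 * qn) (p : Pt B qn) (i : B.ι) (k : ℤ)
    (S : Finset (Pt B qn)) (hS : ∀ p' ∈ S, (td B qn).tr p' = i ∧
      (td B qn).lv p' = (td B qn).lv p ∧ (td B qn).cl p' = k ∧
      ((td B qn).Meet 0 (3 * Q) p p' ∨ (td B qn).Meet 0 (3 * Q) p' p) ∧
      |(td B qn).sl p - (td B qn).sl p'| < Q * 2 ^ (td B qn).lv p) : S.card ≤ 34 := by
  classical
  set j := (td B qn).lv p with hj
  have hqr : (0 : ℝ) < qn := by exact_mod_cast hq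
  have hpj : (0 : ℝ) < 2 ^ j := by positivity
  set x0 := (td B qn).L 0 p with hx0
  set v : ℝ := ((td B qn).ln p x0 - B.c i - B.s i * x0) / qn - 1 / 2 with hv
  have key : ∀ p' ∈ S, |v - p'.1.2.2.2| ≤ 16 := by
    intro p' hp'
    obtain ⟨htr, hlv, hcl, hm, hs⟩ := hS p' hp'
    have h8 : |(td B qn).ln p x0 - (td B qn).ln p' x0| ≤ 8 * Q := by
      have hx : ∃ x, |x0 - x| ≤ 5 / 2 ^ j ∧ |(td B qn).ln p x - (td B qn).ln p' x| ≤ 3 * Q := by
        rcases hm with ⟨x, h1, h2, h3⟩ | ⟨x, h1, h2, h3⟩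
        · have hx : |x - (td B qn).L 0 p| ≤ 1 / 2 ^ j := q_L h1
          refine ⟨x, ?_, h3⟩
          rw [abs_sub_comm]
          have : (1 : ℝ) / 2 ^ j ≤ 5 / 2 ^ j := by gcongr; norm_num
          exact hx.trans this
        · refine ⟨x, ?_, ?_⟩
          · rw [abs_sub_comm]
            exact h2
          · rw [abs_sub_comm]
            exact h3
      obtain ⟨x, hx1, hx2⟩ := hx
      rw [ln_sub p p' x0 x]
      have b1 := abs_add_le ((td B qn).ln p x - (td B qn).ln p' x)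
        (((td B qn).sl p - (td B qn).sl p') * (x0 - x))
      have b2 : |((td B qn).sl p - (td B qn).sl p') * (x0 - x)| ≤ 5 * Q := by
        rw [abs_mul]
        calc |(td B qn).sl p - (td B qn).sl p'| * |x0 - x| ≤ (Q * 2 ^ j) * (5 / 2 ^ j) :=
              mul_le_mul hs.le hx1 (abs_nonneg _) (by positivity)
          _ = 5 * Q := by field_simp
      linarith
    have e : (td B qn).ln p x0 - (td B qn).ln p' x0 = (v - p'.1.2.2.2) * qn := by
      have e1 : (td B qn).ln p' x0 = B.c i + (p'.1.2.2.2 + 1 / 2) * qn + B.s i * x0 := by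
        have htr' : p'.1.1 = i := htr
        show B.c p'.1.1 + (p'.1.2.2.2 + 1 / 2) * qn + B.s p'.1.1 * x0 = _
        rw [htr']
      rw [e1, hv]
      field_simp
      ring
    rw [e, abs_mul, abs_of_pos hqr] at h8
    have : |v - p'.1.2.2.2| * qn ≤ 16 * qn := by linarith
    exact le_of_mul_le_mul_right this hqr
  have h1 : S.card ≤ (Finset.Icc (⌊v⌋ - 16) (⌊v⌋ + 17)).card := by
    refine Finset.card_le_card_of_injOn (fun p' => p'.1.2.2.2) ?_ ?_
    · intro p' hp'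
      have k4 := abs_le.1 (key p' hp')
      have f1 := Int.floor_le v
      have f2 := Int.lt_floor_add_one v
      refine Finset.mem_coe.2 (Finset.mem_Icc.2 ⟨?_, ?_⟩)
      · have : ((⌊v⌋ - 16 : ℤ) : ℝ) ≤ ((p'.1.2.2.2 : ℤ) : ℝ) := by push_cast; linarith
        exact_mod_cast this
      · have : ((p'.1.2.2.2 : ℤ) : ℝ) ≤ ((⌊v⌋ + 17 : ℤ) : ℝ) := by push_cast; linarith
        exact_mod_cast this
    · intro p1 hp1 p2 hp2 he
      obtain ⟨a1, a2, a3, -, -⟩ := hS p1 hp1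
      obtain ⟨b1, b2, b3, -, -⟩ := hS p2 hp2
      have e7 : p1.1.1 = p2.1.1 := a1.trans b1.symm
      have e8 : p1.1.2.1 = p2.1.2.1 := a2.trans b2.symm
      have e5 : p1.1.2.2.1 = p2.1.2.2.1 := a3.trans b3.symm
      exact Subtype.ext (Prod.ext e7 (Prod.ext e8 (Prod.ext e5 he)))
  refine h1.trans (le_of_eq ?_)
  rw [Int.card_Icc]
  have : ⌊v⌋ + 17 + 1 - (⌊v⌋ - 16) = 34 := by ring
  rw [this]
  rfl

/-- **the hypotheses of the abstract theorem** -/
theorem hyp (h : Hb B u A H δ W n) (hu : Field u) {ε : ℝ} (hε : 0 ≤ ε)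
    (hlip : ∀ x y y', |u (x, y) - u (x, y')| ≤ ε * |y - y'|) (hεH : ε * H ≤ 1)
    (hA : 1 ≤ A) (hAQ : A ≤ Q) (hQH : Q ≤ H) (hq : 0 < qn) (hqQ : (qn : ℝ) ≤ Q)
    (hQq : Q ≤ 2 * qn) (hδ : 0 < δ) (hδ1 : δ ≤ 1) {d w : ℕ}
    (hd : 2 * (Q + (d + 1) * (3 * Q + 9 * Q)) ≤ H) (hw : 2 * Q ≤ 2 ^ w) :
    H818.Hyp (td B qn) u 0 ε A Q δ Q (3 * Q) H (W + 1) (221 * (W + 1)) 34 w d where
  meas_u := hu.meas
  meas p := Et_meas h.meas p.1
  cell p z hz := hz.2.1
  line p z hz := (Et_line hq p hz).trans (by linarith)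
  slope p z hz := h.slope _ _ z hz.1
  dens p := dens h p
  sep p p' h1 h2 h3 := sep h hA hAQ hQH hq hqQ p p' h1 h2 h3
  same p S hS := same h hq hQq p S hS
  thick p i k S hS := thick hq (by linarith) hQq p i k S hS
  ovl z S hS := ovl h z S hS
  lip := hlip
  e_nonneg := hε
  eY := hεH
  A_nonneg := by linarith
  h_nonneg := by linarith
  Q_one := by linarith
  η_nonneg := by linarith
  κ_pos := hδ
  κ_le := hδ1
  Y_ge := hd
  hw := hw

end Vale.Agent.P112.DPk
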